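import Mathlib

/-! # P127: Lipschitz families of lines meet a null set in null sets -/

namespace Vale.Agent.P127

open MeasureTheory Set Filter Topology
open scoped NNReal ENNReal

variable {E : Type*} [NormedAddCommGroup E] [NormedSpace ℝ E] [FiniteDimensional ℝ E]
  [MeasurableSpace E] [BorelSpace E] (μ : Measure E) [μ.IsAddHaarMeasure]

/-- a map with invertible derivative at the points of `s` does not map `s` to a null set, unless
`s` is null -/
theorem null_of_image_null {f : E → E} {s : Set E} {f' : E → E →L[ℝ] E}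
    (hf' : ∀ x ∈ s, HasFDerivWithinAt f (f' x) s x) (hdet : ∀ x ∈ s, (f' x).det ≠ 0)
    (h0 : μ (f '' s) = 0) : μ s = 0 := by
  classical
  have hr : ∀ A : E →L[ℝ] E, ∃ r : ℝ≥0, r ≠ 0 ∧ (A.det ≠ 0 →
      ∃ m : ℝ≥0, m ≠ 0 ∧ ∀ (s : Set E) (f : E → E), ApproximatesLinearOn f A s r →
        (m : ℝ≥0∞) * μ s ≤ μ (f '' s)) := by
    intro A
    by_cases hA : A.det = 0
    · exact ⟨1, one_ne_zero, fun h => (h hA).elim⟩
    · have hpos : 0 < |A.det| := abs_pos.2 hA
      have hm : ((Real.toNNReal (|A.det| / 2) : ℝ≥0) : ℝ≥0∞) < ENNReal.ofReal |A.det| := by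
        change ENNReal.ofReal (|A.det| / 2) < _
        exact (ENNReal.ofReal_lt_ofReal_iff hpos).2 (by linarith)
      have h1 := mul_le_addHaar_image_of_lt_det μ A hm
      obtain ⟨r, hr1, hr2⟩ := (h1.and self_mem_nhdsWithin).exists
      refine ⟨r, (show (0 : ℝ≥0) < r from hr2).ne', fun _ => ⟨Real.toNNReal (|A.det| / 2), ?_, hr1⟩⟩
      exact (Real.toNNReal_pos.2 (by linarith)).ne'
  choose r hr0 hr1 using hr
  rcases s.eq_empty_or_nonempty with rfl | hs
  · simp
  obtain ⟨t, A, -, -, hst, happ, hA⟩ :=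
    exists_partition_approximatesLinearOn_of_hasFDerivWithinAt f s f' hf' r hr0
  have hn : ∀ n, μ (s ∩ t n) = 0 := by
    intro n
    obtain ⟨y, hy, hAy⟩ := hA hs n
    obtain ⟨m, hm0, hm⟩ := hr1 (A n) (by rw [hAy]; exact hdet y hy)
    have h2 := hm _ _ (happ n)
    have h3 : μ (f '' (s ∩ t n)) = 0 := measure_mono_null (image_mono inter_subset_left) h0
    rw [h3, nonpos_iff_eq_zero, mul_eq_zero] at h2
    rcases h2 with h2 | h2
    · exact (hm0 (by exact_mod_cast h2)).elim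
    · exact h2
  have hsub : s ⊆ ⋃ n, s ∩ t n := by
    rw [← inter_iUnion]
    exact subset_inter (Subset.refl s) hst
  exact measure_mono_null hsub (measure_iUnion_null hn)

omit [MeasurableSpace E] [BorelSpace E] in
/-- `det (M + t)` vanishes for finitely many `t` only -/
theorem finite_det_zero (M : E →L[ℝ] E) :
    {t : ℝ | (M + t • ContinuousLinearMap.id ℝ E).det = 0}.Finite := by
  have h1 : {t : ℝ | (M + t • ContinuousLinearMap.id ℝ E).det = 0} ⊆
      (fun t : ℝ => -t) '' {c : ℝ | Module.End.HasEigenvalue (M : E →ₗ[ℝ] E) c} := by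
    intro t ht
    refine ⟨-t, ?_, neg_neg t⟩
    have h2 : LinearMap.det ((M : E →ₗ[ℝ] E) + t • LinearMap.id) = 0 := ht
    have h3 := LinearMap.bot_lt_ker_of_det_eq_zero h2
    obtain ⟨v, hv, hv0⟩ := Submodule.exists_mem_ne_zero_of_ne_bot h3.ne'
    rw [LinearMap.mem_ker] at hv
    apply Module.End.hasEigenvalue_of_hasEigenvector (x := v)
    refine ⟨?_, hv0⟩
    rw [Module.End.mem_eigenspace_iff]
    have h4 : (M : E →ₗ[ℝ] E) v + t • v = 0 := by simpa using hv
    rw [neg_smul]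
    exact eq_neg_of_add_eq_zero_left h4
  exact (Set.Finite.image _ (Module.End.finite_hasEigenvalue _)).subset h1

/-- **Lines.** For `A` Lipschitz and `K` null almost all of the lines `A x + ℝ x` meet `K` in a
set of length zero. -/
theorem ae_line_null {C : ℝ≥0} {A : E → E} (hA : LipschitzWith C A) {K : Set E}
    (hK : μ K = 0) : ∀ᵐ x ∂μ, volume {t : ℝ | A x + t • x ∈ K} = 0 := by
  set K' := toMeasurable μ K with hK'
  have hK'0 : μ K' = 0 := by rw [hK', measure_toMeasurable, hK]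
  have hK'm : MeasurableSet K' := measurableSet_toMeasurable μ K
  have hKK' : K ⊆ K' := subset_toMeasurable μ K
  have hAc : Continuous A := hA.continuous
  -- the bad set
  set D : Set (E × ℝ) := {p | A p.1 + p.2 • p.1 ∈ K' ∧ DifferentiableAt ℝ A p.1 ∧
    (fderiv ℝ A p.1 + p.2 • ContinuousLinearMap.id ℝ E).det ≠ 0} with hD
  have hDm : MeasurableSet D := by
    apply MeasurableSet.inter
    · have hc : Continuous fun p : E × ℝ => A p.1 + p.2 • p.1 := by fun_prop
      exact hc.measurable hK'm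
    · apply MeasurableSet.inter
      · exact measurable_fst (measurableSet_of_differentiableAt ℝ A)
      · have h1 : Measurable fun p : E × ℝ =>
            (fderiv ℝ A p.1 + p.2 • ContinuousLinearMap.id ℝ E).det := by
          apply ContinuousLinearMap.continuous_det.measurable.comp
          apply Measurable.add
          · exact (measurable_fderiv ℝ A).comp measurable_fst
          · exact measurable_snd.smul_const _
        exact h1 (measurableSet_singleton (0 : ℝ)).compl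
  have hDt : ∀ t : ℝ, μ ((fun x => (x, t)) ⁻¹' D) = 0 := by
    intro t
    apply null_of_image_null μ (f := fun x => A x + t • x)
      (f' := fun x => fderiv ℝ A x + t • ContinuousLinearMap.id ℝ E)
    · intro x hx
      apply HasFDerivAt.hasFDerivWithinAt
      exact hx.2.1.hasFDerivAt.add ((hasFDerivAt_id x).const_smul t)
    · intro x hx
      exact hx.2.2
    · refine measure_mono_null ?_ hK'0
      rintro _ ⟨x, hx, rfl⟩
      exact hx.1
  have hD0 : (μ.prod (volume : Measure ℝ)) D = 0 := by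
    rw [Measure.prod_apply_symm hDm]
    simp [hDt]
  have hae := Measure.measure_ae_null_of_prod_null hD0
  filter_upwards [hae, hA.ae_differentiableAt (μ := μ)] with x hx hdiff
  have h1 : {t : ℝ | A x + t • x ∈ K} ⊆ (Prod.mk x ⁻¹' D) ∪
      {t : ℝ | (fderiv ℝ A x + t • ContinuousLinearMap.id ℝ E).det = 0} := by
    intro t ht
    by_cases h2 : (fderiv ℝ A x + t • ContinuousLinearMap.id ℝ E).det = 0
    · exact Or.inr h2
    · exact Or.inl ⟨hKK' ht, hdiff, h2⟩
  refine measure_mono_null h1 (measure_union_null hx ?_)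
  exact (finite_det_zero _).measure_zero _

omit [FiniteDimensional ℝ E] [MeasurableSpace E] [BorelSpace E] in
theorem dist_dir_le {x y : E} {δ : ℝ} (hδ : 0 < δ) (hx : δ < ‖x‖) {u v : E}
    (hu : x = ‖x‖ • u) (hv : y = ‖y‖ • v) (hv1 : ‖v‖ = 1) : ‖u - v‖ ≤ 2 / δ * ‖x - y‖ := by
  have hx0 : 0 < ‖x‖ := hδ.trans hx
  have h1 : ‖x‖ • (u - v) = (x - y) + (‖y‖ - ‖x‖) • v := by
    rw [smul_sub, sub_smul, ← hu, ← hv]
    abel
  have h2 : ‖x‖ * ‖u - v‖ ≤ 2 * ‖x - y‖ := by
    calc ‖x‖ * ‖u - v‖ = ‖‖x‖ • (u - v)‖ := by rw [norm_smul, norm_norm]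
      _ = ‖(x - y) + (‖y‖ - ‖x‖) • v‖ := by rw [h1]
      _ ≤ ‖x - y‖ + ‖(‖y‖ - ‖x‖) • v‖ := norm_add_le _ _
      _ = ‖x - y‖ + |‖y‖ - ‖x‖| := by rw [norm_smul, hv1, mul_one, Real.norm_eq_abs]
      _ ≤ ‖x - y‖ + ‖x - y‖ := by
          have := abs_norm_sub_norm_le y x
          rw [norm_sub_rev y x] at this
          linarith
      _ = 2 * ‖x - y‖ := by ring
  rw [div_mul_eq_mul_div, le_div_iff₀ hδ]
  calc ‖u - v‖ * δ ≤ ‖u - v‖ * ‖x‖ := mul_le_mul_of_nonneg_left hx.le (norm_nonneg _)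
    _ = ‖x‖ * ‖u - v‖ := mul_comm _ _
    _ ≤ 2 * ‖x - y‖ := h2

theorem cone_null {Q : Set (Metric.sphere (0 : E) 1)} {b : Metric.sphere (0 : E) 1 → E} {C : ℝ≥0}
    (hb : LipschitzOnWith C b Q) {K : Set E} (hK : μ K = 0)
    (hpos : ∀ e ∈ Q, volume {t : ℝ | b e + t • (e : E) ∈ K} ≠ 0) {δ : ℝ} (hδ : 0 < δ) :
    μ {x : E | δ < ‖x‖ ∧ ∃ e ∈ Q, x = ‖x‖ • (e : E)} = 0 := by
  classical
  set S : Set E := {x : E | δ < ‖x‖ ∧ ∃ e ∈ Q, x = ‖x‖ • (e : E)} with hS
  let A₀ : E → E := fun x => if h : ∃ e ∈ Q, x = ‖x‖ • (e : E) then b h.choose else 0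
  have hA₀ : ∀ x ∈ S, ∃ e ∈ Q, x = ‖x‖ • (e : E) ∧ A₀ x = b e := by
    intro x hx
    have h := hx.2
    refine ⟨h.choose, h.choose_spec.1, h.choose_spec.2, ?_⟩
    simp only [A₀]
    rw [dif_pos h]
  have hlip : LipschitzOnWith (C * Real.toNNReal (2 / δ)) A₀ S := by
    apply LipschitzOnWith.of_dist_le_mul
    intro x hx y hy
    obtain ⟨e, he, hxe, hAx⟩ := hA₀ x hx
    obtain ⟨e', he', hye, hAy⟩ := hA₀ y hy
    rw [hAx, hAy]
    have h1 := hb.dist_le_mul e he e' he'
    have hnorm : ‖(e' : E)‖ = 1 := by simp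
    have h2 := dist_dir_le hδ hx.1 hxe hye hnorm
    rw [NNReal.coe_mul, Real.coe_toNNReal _ (by positivity), dist_eq_norm x y]
    refine h1.trans ?_
    rw [Subtype.dist_eq, dist_eq_norm, mul_assoc]
    exact mul_le_mul_of_nonneg_left h2 C.2
  obtain ⟨A, hA, hAeq⟩ := hlip.extend_finite_dimension
  have hae := ae_line_null μ hA hK
  rw [ae_iff] at hae
  refine measure_mono_null ?_ hae
  intro x hx
  obtain ⟨e, he, hxe, hAx⟩ := hA₀ x hx
  have hx0 : ‖x‖ ≠ 0 := (hδ.trans hx.1).ne'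
  change ¬ volume {t : ℝ | A x + t • x ∈ K} = 0
  rw [← hAeq hx, hAx]
  intro h0
  have h3 : {t : ℝ | b e + t • x ∈ K} = (fun t : ℝ => t * ‖x‖) ⁻¹'
      {t : ℝ | b e + t • (e : E) ∈ K} := by
    ext t
    change b e + t • x ∈ K ↔ b e + (t * ‖x‖) • (e : E) ∈ K
    rw [mul_smul, ← hxe]
  rw [h3, Real.volume_preimage_mul_right hx0, mul_eq_zero] at h0
  rcases h0 with h0 | h0
  · rw [ENNReal.ofReal_eq_zero] at h0
    have : 0 < |‖x‖⁻¹| := abs_pos.2 (inv_ne_zero hx0)
    linarith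
  · exact hpos e he h0

theorem sphere_null {Q : Set (Metric.sphere (0 : E) 1)}
    (h : ∀ δ : ℝ, 0 < δ → μ {x : E | δ < ‖x‖ ∧ ∃ e ∈ Q, x = ‖x‖ • (e : E)} = 0) :
    μ.toSphere Q = 0 := by
  have hcone : μ {x : E | 0 < ‖x‖ ∧ ∃ e ∈ Q, x = ‖x‖ • (e : E)} = 0 := by
    have hsub : {x : E | 0 < ‖x‖ ∧ ∃ e ∈ Q, x = ‖x‖ • (e : E)} ⊆
        ⋃ k : ℕ, {x : E | 1 / ((k : ℝ) + 1) < ‖x‖ ∧ ∃ e ∈ Q, x = ‖x‖ • (e : E)} := by
      rintro x ⟨hx, he⟩
      obtain ⟨k, hk⟩ := exists_nat_one_div_lt hx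
      exact mem_iUnion.2 ⟨k, hk, he⟩
    exact measure_mono_null hsub (measure_iUnion_null fun k => h _ (by positivity))
  have hmp := μ.measurePreserving_homeomorphUnitSphereProd
  have h1 := hmp.measure_preimage_emb (homeomorphUnitSphereProd E).measurableEmbedding
    (Q ×ˢ Iio ⟨1, mem_Ioi.2 one_pos⟩)
  rw [Measure.prod_prod, Measure.volumeIoiPow_apply_Iio,
    comap_subtype_coe_apply (measurableSet_singleton (0 : E)).compl] at h1
  have h2 : μ ((↑) '' ((homeomorphUnitSphereProd E) ⁻¹' (Q ×ˢ Iio ⟨1, mem_Ioi.2 one_pos⟩))) = 0 := by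
    refine measure_mono_null ?_ hcone
    rintro _ ⟨x, hx, rfl⟩
    have hx0 : 0 < ‖(x : E)‖ := norm_pos_iff.2 x.2
    refine ⟨hx0, _, hx.1, ?_⟩
    rw [homeomorphUnitSphereProd_apply_fst_coe, smul_smul, mul_inv_cancel₀ hx0.ne', one_smul]
  rw [h2] at h1
  rcases mul_eq_zero.1 h1.symm with h3 | h3
  · exact h3
  · rw [ENNReal.ofReal_eq_zero] at h3
    have h4 : (0 : ℝ) < 1 ^ (Module.finrank ℝ E - 1 + 1) /
        (((Module.finrank ℝ E - 1 : ℕ) : ℝ) + 1) := by positivity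
    exact absurd h3 (not_le.2 h4)

/-- **Directions.** If `K` is null and `b` is, relative to a set `Q` of directions, pointwise
Lipschitz at each point of `Q`, then for almost every `e` in `Q` the line `b e + ℝ e` meets `K` in
a set of length zero. -/
theorem ae_direction_null (b : Metric.sphere (0 : E) 1 → E) (Q : Set (Metric.sphere (0 : E) 1))
    (hb : ∀ e ∈ Q, ∃ L : ℝ, ∀ᶠ e' in 𝓝[Q] e, dist (b e') (b e) ≤ L * dist e' e)
    {K : Set E} (hK : μ K = 0) :
    μ.toSphere {e | e ∈ Q ∧ volume {t : ℝ | b e + t • (e : E) ∈ K} ≠ 0} = 0 := by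
  set P : Set (Metric.sphere (0 : E) 1) :=
    {e | e ∈ Q ∧ volume {t : ℝ | b e + t • (e : E) ∈ K} ≠ 0} with hP
  let R : ℕ → Set (Metric.sphere (0 : E) 1) := fun j =>
    {e | e ∈ P ∧ ∀ e' ∈ Q, dist e' e < 1 / ((j : ℝ) + 1) → dist (b e') (b e) ≤ j * dist e' e}
  have hcov : P ⊆ ⋃ j, R j := by
    intro e he
    obtain ⟨L, hL⟩ := hb e he.1
    rw [eventually_nhdsWithin_iff] at hL
    obtain ⟨ε, hε, hε'⟩ := Metric.eventually_nhds_iff.1 hL
    obtain ⟨j₁, hj₁⟩ := exists_nat_one_div_lt hε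
    obtain ⟨j₂, hj₂⟩ := exists_nat_ge L
    refine mem_iUnion.2 ⟨max j₁ j₂, he, fun e' heQ he' => ?_⟩
    have h1 : dist e' e < ε := by
      refine lt_trans (lt_of_lt_of_le he' ?_) hj₁
      apply one_div_le_one_div_of_le (by positivity)
      have : (j₁ : ℝ) ≤ ((max j₁ j₂ : ℕ) : ℝ) := by exact_mod_cast le_max_left _ _
      linarith
    refine (hε' h1 heQ).trans (mul_le_mul_of_nonneg_right ?_ dist_nonneg)
    refine hj₂.trans ?_
    exact_mod_cast le_max_right _ _
  refine measure_mono_null hcov (measure_iUnion_null fun j => ?_)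
  apply measure_null_of_locally_null
  intro e he
  refine ⟨R j ∩ Metric.ball e (1 / (2 * ((j : ℝ) + 1))), ?_, ?_⟩
  · exact inter_mem self_mem_nhdsWithin
      (nhdsWithin_le_nhds (Metric.ball_mem_nhds _ (by positivity)))
  · apply sphere_null
    intro δ hδ
    apply cone_null μ (C := (j : ℝ≥0)) (b := b) _ hK _ hδ
    · apply LipschitzOnWith.of_dist_le_mul
      intro x hx y hy
      have hxy : dist x y < 1 / ((j : ℝ) + 1) := by
        calc dist x y ≤ dist x e + dist y e := dist_triangle_right _ _ _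
          _ < 1 / (2 * ((j : ℝ) + 1)) + 1 / (2 * ((j : ℝ) + 1)) :=
              add_lt_add (Metric.mem_ball.1 hx.2) (Metric.mem_ball.1 hy.2)
          _ = 1 / ((j : ℝ) + 1) := by field_simp; norm_num
      have := hy.1.2 x hx.1.1.1 hxy
      simpa using this
    · intro x hx
      exact hx.1.1.2

/-- a subset of `ℝ^n` which is not Lebesgue null has Hausdorff dimension `n` -/
theorem dimH_eq_of_volume_ne_zero {n : ℕ} {K : Set (EuclideanSpace ℝ (Fin n))}
    (h : volume K ≠ 0) : dimH K = n := by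
  apply le_antisymm
  · calc dimH K ≤ dimH (univ : Set (EuclideanSpace ℝ (Fin n))) := dimH_mono (subset_univ _)
      _ = n := by rw [Real.dimH_univ_eq_finrank]; simp
  · by_contra hlt
    rw [not_le] at hlt
    apply h
    let φ : EuclideanSpace ℝ (Fin n) ≃L[ℝ] (Fin n → ℝ) := PiLp.continuousLinearEquiv 2 ℝ _
    have h1 : dimH (φ '' K) < ((n : ℝ≥0) : ℝ≥0∞) := by
      rw [ContinuousLinearEquiv.dimH_image]
      exact_mod_cast hlt
    have h2 := hausdorffMeasure_of_dimH_lt h1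
    have h3 : volume (φ '' K) = 0 := by
      rw [← hausdorffMeasure_pi_real]
      simpa using h2
    have h4 := (PiLp.volume_preserving_toLp (Fin n)).measure_preimage_emb
      (MeasurableEquiv.toLp 2 (Fin n → ℝ)).measurableEmbedding K
    rw [← h4]
    refine measure_mono_null ?_ h3
    intro x hx
    exact ⟨WithLp.toLp 2 x, hx, rfl⟩

end Vale.Agent.P127
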